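import Mathlib
import Vale.Agent.P260.H493.Defs
import Vale.Agent.P260.H493.Basic

/-!
# P260 climb, M13: functionals over the group algebra of a subgroup of degree 0

Truncation by degree, the projection `pr0 : k[Γ] → k[Δ]`, and the correspondence between
`k[Γ]`-linear functionals and functionals over `k[Δ]` supported in bounded degrees.
-/

namespace Vale.Agent.P260.H143

open MonoidAlgebra Vale.Agent.P260.H493

section lin

variable {k G M N : Type} [Field k] [Group G] [AddCommGroup M] [AddCommGroup N]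
  [Module (MonoidAlgebra k G) M] [Module (MonoidAlgebra k G) N]

/-- an additive map that commutes with all `single g r` is linear -/
def linOf (f : M →+ N) (h : ∀ (g : G) (r : k) (x : M), f (single g r • x) = single g r • f x) :
    M →ₗ[MonoidAlgebra k G] N where
  toFun := f
  map_add' := f.map_add
  map_smul' b x := by
    simp only [RingHom.id_apply]
    induction b using MonoidAlgebra.induction_linear with
    | zero => simp
    | add a b ha hb => rw [add_smul, map_add, ha, hb, add_smul]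
    | single g r => exact h g r x

@[simp] theorem linOf_apply (f : M →+ N)
    (h : ∀ (g : G) (r : k) (x : M), f (single g r • x) = single g r • f x) (x : M) :
    linOf f h x = f x := rfl

end lin

section

variable {k Γ : Type} [Field k] [Group Γ]

theorem bsmul_single (Δ : Subgroup Γ) (δ : Δ) (r : k) (x : MonoidAlgebra k Γ) :
    (single δ r : MonoidAlgebra k Δ) • x = single (δ : Γ) r * x := by
  change mapDomainRingHom k Δ.subtype (single δ r) * x = _
  simp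

theorem coeff_bsmul (Δ : Subgroup Γ) (δ : Δ) (r : k) (x : MonoidAlgebra k Γ) (y : Γ) :
    ((single δ r : MonoidAlgebra k Δ) • x).coeff y = r * x.coeff ((δ : Γ)⁻¹ * y) := by
  rw [bsmul_single, coeff_single_mul']

theorem deg_mem {ψ : Γ →* Multiplicative ℤ} {Δ : Subgroup Γ} (hΔ : ∀ g ∈ Δ, ψ g = 1) {g : Γ}
    (hg : g ∈ Δ) : deg ψ g = 0 := by
  rw [deg, hΔ g hg]; rfl

open Classical in
/-- the part of degree `≥ 0` -/
noncomputable def cut (ψ : Γ →* Multiplicative ℤ) (Δ : Subgroup Γ) (hΔ : ∀ g ∈ Δ, ψ g = 1)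
    (ι : Type) : (ι → MonoidAlgebra k Γ) →ₗ[MonoidAlgebra k Δ] (ι → MonoidAlgebra k Γ) :=
  linOf
    { toFun := fun v i => ofCoeff ((v i).coeff.filter fun g => 0 ≤ deg ψ g)
      map_zero' := by
        funext i; apply MonoidAlgebra.ext; ext y; simp [Finsupp.filter_apply]
      map_add' := fun v w => by
        funext i; apply MonoidAlgebra.ext; ext y; simp [Finsupp.filter_add] }
    (by
      intro δ r v
      funext i
      apply MonoidAlgebra.ext
      ext y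
      change (((single δ r • v) i).coeff.filter fun g => 0 ≤ deg ψ g) y =
        (single δ r • (ofCoeff ((v i).coeff.filter fun g => 0 ≤ deg ψ g))).coeff y
      rw [coeff_bsmul, Finsupp.filter_apply, coeff_ofCoeff, Finsupp.filter_apply]
      have h1 : deg ψ ((δ : Γ)⁻¹ * y) = deg ψ y := by
        rw [deg_mul, deg_inv, deg_mem hΔ δ.2]; ring
      rw [h1, Pi.smul_apply, coeff_bsmul]
      split_ifs
      · rfl
      · simp)

theorem cut_coeff (ψ : Γ →* Multiplicative ℤ) (Δ : Subgroup Γ) (hΔ : ∀ g ∈ Δ, ψ g = 1)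
    {ι : Type} (v : ι → MonoidAlgebra k Γ) (i : ι) (y : Γ) :
    (cut ψ Δ hΔ ι v i).coeff y = open Classical in if 0 ≤ deg ψ y then (v i).coeff y else 0 := by
  classical
  change ((v i).coeff.filter fun g => 0 ≤ deg ψ g) y = _
  rw [Finsupp.filter_apply]

theorem cut_of_ge {ψ : Γ →* Multiplicative ℤ} {Δ : Subgroup Γ} (hΔ : ∀ g ∈ Δ, ψ g = 1)
    {ι : Type} {v : ι → MonoidAlgebra k Γ} (hv : Ge ψ 0 v) : cut ψ Δ hΔ ι v = v := by
  classical
  funext i; apply MonoidAlgebra.ext; ext y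
  rw [cut_coeff]
  split_ifs with h
  · rfl
  · by_contra h2
    exact h (hv i y (Ne.symm h2))

theorem cut_of_le {ψ : Γ →* Multiplicative ℤ} {Δ : Subgroup Γ} (hΔ : ∀ g ∈ Δ, ψ g = 1)
    {ι : Type} {v : ι → MonoidAlgebra k Γ} (hv : Le ψ (-1) v) : cut ψ Δ hΔ ι v = 0 := by
  classical
  funext i; apply MonoidAlgebra.ext; ext y
  rw [cut_coeff]
  split_ifs with h
  · by_contra h2
    have := hv i y h2
    omega
  · rfl

/-- the part supported on `Δ` -/
noncomputable def pr0 (Δ : Subgroup Γ) : MonoidAlgebra k Γ →ₗ[MonoidAlgebra k Δ] MonoidAlgebra k Δ :=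
  linOf
    { toFun := fun x => ofCoeff (x.coeff.subtypeDomain fun g => g ∈ Δ)
      map_zero' := rfl
      map_add' := fun v w => by
        apply MonoidAlgebra.ext; ext y; simp }
    (by
      intro δ r v
      apply MonoidAlgebra.ext
      ext y
      change ((single δ r • v : MonoidAlgebra k Γ)).coeff (y : Γ) =
        (single δ r * (ofCoeff (v.coeff.subtypeDomain fun g => g ∈ Δ))).coeff y
      rw [coeff_bsmul, coeff_single_mul']
      rfl)

theorem pr0_coeff (Δ : Subgroup Γ) (x : MonoidAlgebra k Γ) (y : Δ) :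
    (pr0 Δ x).coeff y = x.coeff (y : Γ) := rfl

theorem pr0_smul (Δ : Subgroup Γ) (c : k) (x : MonoidAlgebra k Γ) :
    pr0 Δ (c • x) = c • pr0 Δ x := by
  apply MonoidAlgebra.ext; ext y
  rw [pr0_coeff]
  simp [pr0_coeff]

/-- `pr0 ∘ φ` -/
noncomputable def pf (Δ : Subgroup Γ) {ι : Type}
    (φ : (ι → MonoidAlgebra k Γ) →ₗ[MonoidAlgebra k Γ] MonoidAlgebra k Γ) :
    (ι → MonoidAlgebra k Γ) →ₗ[MonoidAlgebra k Δ] MonoidAlgebra k Δ where
  toFun v := pr0 Δ (φ v)
  map_add' v w := by rw [map_add, map_add]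
  map_smul' b v := by
    have h : φ (b • v) = b • φ v := φ.map_smul (mapDomainRingHom k Δ.subtype b) v
    rw [h, map_smul]; rfl

@[simp] theorem pf_apply (Δ : Subgroup Γ) {ι : Type}
    (φ : (ι → MonoidAlgebra k Γ) →ₗ[MonoidAlgebra k Γ] MonoidAlgebra k Γ)
    (v : ι → MonoidAlgebra k Γ) : pf Δ φ v = pr0 Δ (φ v) := rfl

@[simp] theorem resS_apply (Δ : Subgroup Γ) {ι κ : Type}
    (T : (ι → MonoidAlgebra k Γ) →ₗ[MonoidAlgebra k Γ] (κ → MonoidAlgebra k Γ))
    (v : ι → MonoidAlgebra k Γ) : resS Δ T v = T v := rfl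

/-- `pr0 ∘ φ` determines `φ` -/
theorem pf_inj (Δ : Subgroup Γ) {ι : Type}
    {φ χ : (ι → MonoidAlgebra k Γ) →ₗ[MonoidAlgebra k Γ] MonoidAlgebra k Γ}
    (h : ∀ v, pr0 Δ (φ v) = pr0 Δ (χ v)) : φ = χ := by
  ext1 v
  apply MonoidAlgebra.ext
  ext g
  have key : ∀ θ : (ι → MonoidAlgebra k Γ) →ₗ[MonoidAlgebra k Γ] MonoidAlgebra k Γ,
      (θ v).coeff g = (pr0 Δ (θ (single g⁻¹ (1 : k) • v))).coeff 1 := by
    intro θ
    rw [pr0_coeff, θ.map_smul, smul_eq_mul, coeff_single_mul']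
    simp
  rw [key, key, h]

/-- a functional that vanishes on vectors of small degree -/
def UpE (ψ : Γ →* Multiplicative ℤ) {ι N : Type} [Zero N] (z : (ι → MonoidAlgebra k Γ) → N) : Prop :=
  ∃ c, UpF ψ c z

section up

variable {ψ : Γ →* Multiplicative ℤ} {Δ : Subgroup Γ} {ι κ N : Type} [AddCommGroup N]
  [Module (MonoidAlgebra k Δ) N]

theorem UpE.add {z w : (ι → MonoidAlgebra k Γ) →ₗ[MonoidAlgebra k Δ] N} (hz : UpE ψ z)
    (hw : UpE ψ w) : UpE ψ (z + w) := by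
  obtain ⟨c, hc⟩ := hz
  obtain ⟨c', hc'⟩ := hw
  refine ⟨min c c', fun v hv => ?_⟩
  rw [LinearMap.add_apply, hc v (hv.mono (min_le_left _ _)),
    hc' v (hv.mono (min_le_right _ _)), add_zero]

theorem UpE.neg {z : (ι → MonoidAlgebra k Γ) →ₗ[MonoidAlgebra k Δ] N} (hz : UpE ψ z) :
    UpE ψ (-z) := by
  obtain ⟨c, hc⟩ := hz
  refine ⟨c, fun v hv => ?_⟩
  rw [LinearMap.neg_apply, hc v hv, neg_zero]

theorem UpE.sub {z w : (ι → MonoidAlgebra k Γ) →ₗ[MonoidAlgebra k Δ] N} (hz : UpE ψ z)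
    (hw : UpE ψ w) : UpE ψ (z - w) := by
  rw [sub_eq_add_neg]; exact hz.add hw.neg

theorem UpE.smul {z : (ι → MonoidAlgebra k Γ) →ₗ[MonoidAlgebra k Δ] MonoidAlgebra k Δ}
    (hz : UpE ψ z) (a : k) : UpE ψ (a • z) := by
  obtain ⟨c, hc⟩ := hz
  refine ⟨c, fun v hv => ?_⟩
  rw [LinearMap.smul_apply, hc v hv, smul_zero]

theorem UpE.comp [Finite ι] [Finite κ]
    {z : (κ → MonoidAlgebra k Γ) →ₗ[MonoidAlgebra k Δ] N} (hz : UpE ψ z)
    (T : (ι → MonoidAlgebra k Γ) →ₗ[MonoidAlgebra k Γ] (κ → MonoidAlgebra k Γ)) :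
    UpE ψ (z ∘ₗ resS Δ T) := by
  obtain ⟨c, hc⟩ := hz
  obtain ⟨C, hC⟩ := exists_shift (ψ := ψ⁻¹) T
  refine ⟨c + C, fun v hv => ?_⟩
  rw [LinearMap.comp_apply, resS_apply]
  exact hc _ ((hC.le hv).mono (by omega))

theorem UpE.cut (hΔ : ∀ g ∈ Δ, ψ g = 1) (z : (ι → MonoidAlgebra k Γ) →ₗ[MonoidAlgebra k Δ] N) :
    UpE ψ (z ∘ₗ cut ψ Δ hΔ ι) :=
  ⟨-1, fun v hv => by rw [LinearMap.comp_apply, cut_of_le hΔ hv, map_zero]⟩

theorem UpE.cut' (hΔ : ∀ g ∈ Δ, ψ g = 1) (z : (ι → MonoidAlgebra k Γ) →ₗ[MonoidAlgebra k Δ] N) :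
    UpE ψ⁻¹ (z - z ∘ₗ H143.cut ψ Δ hΔ ι) :=
  ⟨0, fun v hv => by
    rw [le_inv_iff, neg_zero] at hv
    rw [LinearMap.sub_apply, LinearMap.comp_apply, cut_of_ge hΔ hv, sub_self]⟩

/-- every functional is the sum of an upper and a lower one -/
theorem exists_cut (hΔ : ∀ g ∈ Δ, ψ g = 1)
    (z : (ι → MonoidAlgebra k Γ) →ₗ[MonoidAlgebra k Δ] N) :
    ∃ u d : (ι → MonoidAlgebra k Γ) →ₗ[MonoidAlgebra k Δ] N, UpE ψ u ∧ UpE ψ⁻¹ d ∧ z = u + d :=
  ⟨z ∘ₗ cut ψ Δ hΔ ι, z - z ∘ₗ cut ψ Δ hΔ ι, UpE.cut hΔ z, UpE.cut' hΔ z, by abel⟩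

theorem pf_up [Finite ι] (hΔ : ∀ g ∈ Δ, ψ g = 1)
    (φ : (ι → MonoidAlgebra k Γ) →ₗ[MonoidAlgebra k Γ] MonoidAlgebra k Γ) :
    UpE ψ (pf Δ φ) := by
  obtain ⟨C, hC⟩ := exists_shift (ψ := ψ⁻¹)
    (LinearMap.pi (fun _ : Unit => φ) :
      (ι → MonoidAlgebra k Γ) →ₗ[MonoidAlgebra k Γ] (Unit → MonoidAlgebra k Γ))
  refine ⟨C - 1, fun v hv => ?_⟩
  have h := (hC.le hv).mono (c' := -1) (by omega)
  rw [pf_apply]
  apply MonoidAlgebra.ext
  ext y
  rw [pr0_coeff]
  by_contra h2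
  have h3 := h () y (by simpa using h2)
  rw [deg_mem hΔ y.2] at h3
  omega

theorem pf_down [Finite ι] (hΔ : ∀ g ∈ Δ, ψ g = 1)
    (φ : (ι → MonoidAlgebra k Γ) →ₗ[MonoidAlgebra k Γ] MonoidAlgebra k Γ) :
    UpE ψ⁻¹ (pf Δ φ) :=
  pf_up (ψ := ψ⁻¹) (fun g hg => by simp [hΔ g hg]) φ

end up

section phi

variable {ψ : Γ →* Multiplicative ℤ} {ι : Type}

theorem finite_phi [Finite ι] (hψ : Function.Surjective ψ)
    {z : (ι → MonoidAlgebra k Γ) →ₗ[MonoidAlgebra k ψ.ker] MonoidAlgebra k ψ.ker}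
    (hu : UpE ψ z) (hd : UpE ψ⁻¹ z) (v : ι → MonoidAlgebra k Γ) :
    (Function.support fun g : Γ => (z (single g⁻¹ (1 : k) • v)).coeff 1).Finite := by
  classical
  obtain ⟨c, hc⟩ := hu
  obtain ⟨c', hc'⟩ := hd
  obtain ⟨a, ha⟩ := exists_ge (ψ := ψ) v
  obtain ⟨b, hb⟩ := exists_le (ψ := ψ) v
  choose t ht using exists_deg ψ hψ
  have hfin : (((Finset.Icc (a + c') (b - c)).biUnion fun j =>
      (z (single (t j)⁻¹ (1 : k) • v)).coeff.support.image
        (fun δ : ψ.ker => t j * (δ : Γ)) : Finset Γ) :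
      Set Γ).Finite := Finset.finite_toSet _
  refine hfin.subset fun g hg => ?_
  rw [Function.mem_support] at hg
  have hmem : deg ψ g ∈ Finset.Icc (a + c') (b - c) := by
    rw [Finset.mem_Icc]
    constructor
    · by_contra hlt
      apply hg
      rw [hc' _ ?_]
      · rfl
      · rw [le_inv_iff]
        refine (ha.single_smul g⁻¹ 1).mono ?_
        rw [deg_inv]; omega
    · by_contra hlt
      apply hg
      rw [hc _ ?_]
      · rfl
      · refine (hb.single_smul g⁻¹ 1).mono ?_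
        rw [deg_inv]; omega
  have hδ : (t (deg ψ g))⁻¹ * g ∈ ψ.ker := by
    rw [MonoidHom.mem_ker]
    have : deg ψ ((t (deg ψ g))⁻¹ * g) = 0 := by
      rw [deg_mul, deg_inv, ht]; ring
    exact Multiplicative.toAdd.injective (by simpa [deg] using this)
  rw [Finset.coe_biUnion, Set.mem_iUnion₂]
  refine ⟨deg ψ g, hmem, ?_⟩
  rw [Finset.coe_image]
  refine ⟨⟨(t (deg ψ g))⁻¹ * g, hδ⟩, ?_, by simp⟩
  rw [Finset.mem_coe, Finsupp.mem_support_iff]
  intro h0
  apply hg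
  have h1 : (single g⁻¹ (1 : k) : MonoidAlgebra k Γ) • v =
      (single (⟨(t (deg ψ g))⁻¹ * g, hδ⟩ : ψ.ker)⁻¹ (1 : k) : MonoidAlgebra k ψ.ker) •
        ((single (t (deg ψ g))⁻¹ (1 : k) : MonoidAlgebra k Γ) • v) := by
    funext i
    rw [Pi.smul_apply, Pi.smul_apply, Pi.smul_apply, bsmul_single, smul_eq_mul, smul_eq_mul,
      ← mul_assoc, single_mul_single]
    simp
  rw [h1, map_smul, smul_eq_mul, coeff_single_mul']
  simpa using h0

/-- a functional supported in bounded degrees is `pr0 ∘ φ` for an `A`-linear `φ` -/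
theorem exists_phi [Finite ι] (hψ : Function.Surjective ψ)
    {z : (ι → MonoidAlgebra k Γ) →ₗ[MonoidAlgebra k ψ.ker] MonoidAlgebra k ψ.ker}
    (hu : UpE ψ z) (hd : UpE ψ⁻¹ z) :
    ∃ φ : (ι → MonoidAlgebra k Γ) →ₗ[MonoidAlgebra k Γ] MonoidAlgebra k Γ, pf ψ.ker φ = z := by
  classical
  let F : (ι → MonoidAlgebra k Γ) → MonoidAlgebra k Γ := fun v =>
    ofCoeff (Finsupp.ofSupportFinite (fun g : Γ => (z (single g⁻¹ (1 : k) • v)).coeff 1)
      (finite_phi hψ hu hd v))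
  have hF : ∀ v g, (F v).coeff g = (z (single g⁻¹ (1 : k) • v)).coeff 1 := fun v g => rfl
  refine ⟨linOf
    { toFun := F
      map_zero' := by apply MonoidAlgebra.ext; ext g; rw [hF]; simp
      map_add' := fun v w => by
        apply MonoidAlgebra.ext; ext g
        rw [coeff_add, Finsupp.add_apply, hF, hF, hF, smul_add, map_add, coeff_add,
          Finsupp.add_apply] } ?_, ?_⟩
  · intro h r v
    apply MonoidAlgebra.ext; ext g
    change (F (single h r • v)).coeff g = (single h r * F v).coeff g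
    rw [coeff_single_mul', hF, hF]
    have h1 : (single g⁻¹ (1 : k) : MonoidAlgebra k Γ) • (single h r : MonoidAlgebra k Γ) • v =
        (single (1 : ψ.ker) r : MonoidAlgebra k ψ.ker) •
          ((single (h⁻¹ * g)⁻¹ (1 : k) : MonoidAlgebra k Γ) • v) := by
      funext i
      rw [Pi.smul_apply, Pi.smul_apply, Pi.smul_apply, Pi.smul_apply, bsmul_single, smul_eq_mul,
        smul_eq_mul, smul_eq_mul, ← mul_assoc, ← mul_assoc, single_mul_single, single_mul_single]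
      simp
    rw [h1, map_smul, smul_eq_mul, coeff_single_mul']
    simp
  · refine LinearMap.ext fun v => ?_
    apply MonoidAlgebra.ext; ext δ
    rw [pf_apply, pr0_coeff]
    change (F v).coeff (δ : Γ) = _
    rw [hF]
    have h1 : (single (δ : Γ)⁻¹ (1 : k) : MonoidAlgebra k Γ) • v =
        (single (δ⁻¹ : ψ.ker) (1 : k) : MonoidAlgebra k ψ.ker) • v := by
      funext i
      rw [Pi.smul_apply, Pi.smul_apply, bsmul_single, smul_eq_mul]
      rfl
    rw [h1, map_smul, smul_eq_mul, coeff_single_mul']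
    simp

end phi

end

end Vale.Agent.P260.H143
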