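import Mathlib
import Vale.Agent.P260.H493.Spec
import Vale.Agent.P260.H143.Cut

/-!
# P260 climb, M13: the cohomology of `Δ = ker ψ`, computed with the complex of `Γ`
-/

namespace Vale.Agent.P260.H143

open MonoidAlgebra Vale.Agent.P260.H493

section

variable {k Γ : Type} [Field k] [Group Γ] {ψ : Γ →* Multiplicative ℤ} {m : ℕ}
  (P : PDG k Γ (m + 1))

theorem dd (i : ℕ) (hi : i < m + 1) (v) : P.d i (P.d (i + 1) v) = 0 :=
  (P.ex i hi _).2 ⟨v, rfl⟩

/-- the upper half of a cocycle maps to a bounded functional, which is a coboundary of one -/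
theorem split_cocycle (hψ : Function.Surjective ψ) (i : ℕ) (hi : i < m + 1)
    {u d : (Fin (P.r i) → MonoidAlgebra k Γ) →ₗ[MonoidAlgebra k ψ.ker] MonoidAlgebra k ψ.ker}
    (hu : UpE ψ u) (hd : UpE ψ⁻¹ d) (h : (u + d) ∘ₗ resS ψ.ker (P.d i) = 0) :
    ∃ χ : (Fin (P.r i) → MonoidAlgebra k Γ) →ₗ[MonoidAlgebra k Γ] MonoidAlgebra k Γ,
      (u - pf ψ.ker χ) ∘ₗ resS ψ.ker (P.d i) = 0 ∧ (d + pf ψ.ker χ) ∘ₗ resS ψ.ker (P.d i) = 0 := by
  have h1 : u ∘ₗ resS ψ.ker (P.d i) = - (d ∘ₗ resS ψ.ker (P.d i)) := by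
    rw [LinearMap.add_comp] at h
    exact eq_neg_of_add_eq_zero_left h
  have hup : UpE ψ (u ∘ₗ resS ψ.ker (P.d i)) := hu.comp _
  have hdn : UpE ψ⁻¹ (u ∘ₗ resS ψ.ker (P.d i)) := by
    rw [h1]; exact (hd.comp _).neg
  obtain ⟨φ, hφ⟩ := exists_phi hψ hup hdn
  have hφ' : ∀ v, pr0 ψ.ker (φ v) = u (P.d i v) := fun v => by
    have := congrArg (fun f => f v) hφ
    simpa using this
  have h2 : φ ∘ₗ P.d (i + 1) = 0 := by
    refine pf_inj ψ.ker fun v => ?_
    rw [LinearMap.comp_apply, hφ', dd P i hi]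
    simp
  obtain ⟨χ, hχ⟩ := P.co i hi φ h2
  have h3 : (pf ψ.ker χ) ∘ₗ resS ψ.ker (P.d i) = u ∘ₗ resS ψ.ker (P.d i) := by
    refine LinearMap.ext fun v => ?_
    rw [LinearMap.comp_apply, LinearMap.comp_apply, resS_apply, pf_apply, ← hφ', hχ]
    rfl
  refine ⟨χ, ?_, ?_⟩
  · rw [LinearMap.sub_comp, h3, sub_self]
  · rw [LinearMap.add_comp, h3, h1]; simp

end

/-- M13 -/
theorem stmtHA (acyc : StmtAcyc) : StmtHA := by
  intro k Γ _ _ ψ m P hψ hp hp'
  have hΔ : ∀ g ∈ ψ.ker, ψ g = 1 := fun g hg => hg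
  have hΔ' : ∀ g ∈ ψ.ker, ψ⁻¹ g = 1 := fun g hg => by
    rw [MonoidHom.inv_apply, hΔ g hg, inv_one]
  have AU := acyc k Γ ψ ψ.ker (m + 1) P hΔ hp'
  have AD := acyc k Γ ψ⁻¹ ψ.ker (m + 1) P hΔ' (by rw [inv_inv]; exact hp)
  refine ⟨?_, ?_, ?_, ?_⟩
  · intro N _ _ z hz
    obtain ⟨u, d, hu, hd, rfl⟩ := exists_cut hΔ z
    obtain ⟨y, -, hy⟩ := (AU N).2.2 (u ∘ₗ resS ψ.ker P.π) (by
      refine LinearMap.ext fun v => ?_
      simp only [LinearMap.comp_apply, resS_apply, P.pi_pi]) (hu.comp P.π)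
    obtain ⟨y', -, hy'⟩ := (AD N).2.2 (d ∘ₗ resS ψ.ker P.π) (by
      refine LinearMap.ext fun v => ?_
      simp only [LinearMap.comp_apply, resS_apply, P.pi_pi]) (hd.comp P.π)
    refine ⟨y + y', ?_⟩
    rw [LinearMap.add_comp, ← hy, ← hy', ← LinearMap.add_comp, hz]
  · intro z hz
    obtain ⟨u, d, hu, hd, rfl⟩ := exists_cut hΔ z
    obtain ⟨χ, h1, h2⟩ := split_cocycle P hψ 0 (by omega) hu hd hz
    have h3 := (AU _).1 _ h1 (hu.sub (pf_up hΔ χ))
    have h4 := (AD _).1 _ h2 (hd.add (pf_down hΔ χ))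
    have : u + d = (u - pf ψ.ker χ) + (d + pf ψ.ker χ) := by abel
    rw [this, h3, h4, add_zero]
  · intro i hi z hz
    obtain ⟨u, d, hu, hd, rfl⟩ := exists_cut hΔ z
    obtain ⟨χ, h1, h2⟩ := split_cocycle P hψ (i + 1) (by omega) hu hd hz
    obtain ⟨y, -, hy⟩ := (AU _).2.1 i (by omega) _ h1 (hu.sub (pf_up hΔ χ))
    obtain ⟨y', -, hy'⟩ := (AD _).2.1 i (by omega) _ h2 (hd.add (pf_down hΔ χ))
    refine ⟨y + y', ?_⟩
    rw [LinearMap.add_comp, ← hy, ← hy']
    abel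
  · obtain ⟨φ₀, hπ, hne, htop⟩ := P.co_top
    have hc0 : (pf ψ.ker φ₀) ∘ₗ resS ψ.ker P.π = pf ψ.ker φ₀ := by
      refine LinearMap.ext fun v => ?_
      rw [LinearMap.comp_apply, resS_apply, pf_apply, pf_apply]
      conv_rhs => rw [← hπ]
      rfl
    obtain ⟨yu, hyu, hyu'⟩ := (AU _).2.2 _ hc0 (pf_up hΔ φ₀)
    obtain ⟨yd, hyd, hyd'⟩ := (AD _).2.2 _ hc0 (pf_down hΔ φ₀)
    refine ⟨yu - yd, ?_, ?_, ?_⟩
    · rw [LinearMap.sub_comp, ← hyu', ← hyd', sub_self]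
    · rintro ⟨y, hy⟩
      obtain ⟨u, d, hu, hd, rfl⟩ := exists_cut hΔ y
      have h1 : yu - u ∘ₗ resS ψ.ker (P.d m) = yd + d ∘ₗ resS ψ.ker (P.d m) := by
        rw [LinearMap.add_comp] at hy
        rw [sub_eq_iff_eq_add] at hy ⊢
        rw [hy]; abel
      have hup : UpE ψ (yu - u ∘ₗ resS ψ.ker (P.d m)) := UpE.sub hyu (hu.comp _)
      have hdn : UpE ψ⁻¹ (yu - u ∘ₗ resS ψ.ker (P.d m)) := by
        rw [h1]; exact UpE.add hyd (hd.comp _)
      obtain ⟨χ, hχ⟩ := exists_phi hψ hup hdn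
      apply hne
      refine ⟨χ, pf_inj ψ.ker fun v => ?_⟩
      have h2 := congrArg (fun f => f (P.d (m + 1) v)) hχ
      have h3 := congrArg (fun f => f v) hyu'
      simp only [LinearMap.sub_apply, LinearMap.comp_apply, resS_apply, pf_apply] at h2 h3
      rw [dd P m (by omega), map_zero, sub_zero] at h2
      rw [LinearMap.comp_apply, h2, h3]
    · intro z hz
      obtain ⟨u, d, hu, hd, rfl⟩ := exists_cut hΔ z
      have h1 : u ∘ₗ resS ψ.ker (P.d (m + 1)) = - (d ∘ₗ resS ψ.ker (P.d (m + 1))) := by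
        rw [LinearMap.add_comp] at hz
        exact eq_neg_of_add_eq_zero_left hz
      have hup : UpE ψ (u ∘ₗ resS ψ.ker (P.d (m + 1))) := hu.comp _
      have hdn : UpE ψ⁻¹ (u ∘ₗ resS ψ.ker (P.d (m + 1))) := by
        rw [h1]; exact (hd.comp _).neg
      obtain ⟨φ, hφ⟩ := exists_phi hψ hup hdn
      have hφ' : ∀ v, pr0 ψ.ker (φ v) = u (P.d (m + 1) v) := fun v => by
        have := congrArg (fun f => f v) hφ
        simpa using this
      have hφπ : φ ∘ₗ P.π = φ := by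
        refine pf_inj ψ.ker fun v => ?_
        rw [LinearMap.comp_apply, hφ', hφ', P.d_pi]
      obtain ⟨c, χ, hχ⟩ := htop φ hφπ
      have h2 : ∀ v, u (P.d (m + 1) v) = c • pr0 ψ.ker (φ₀ v) + pr0 ψ.ker (χ (P.d (m + 1) v)) :=
        fun v => by rw [← hφ', hχ, map_add, pr0_smul]
      have h3 : ∀ v, pr0 ψ.ker (φ₀ v) = yu (P.d (m + 1) v) := fun v => by
        have := congrArg (fun f => f v) hyu'
        simpa using this
      have h4 : ∀ v, pr0 ψ.ker (φ₀ v) = yd (P.d (m + 1) v) := fun v => by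
        have := congrArg (fun f => f v) hyd'
        simpa using this
      have h5 : ∀ v, d (P.d (m + 1) v) = - u (P.d (m + 1) v) := fun v => by
        have := congrArg (fun f => f v) h1
        simp only [LinearMap.comp_apply, resS_apply, LinearMap.neg_apply] at this
        rw [this, neg_neg]
      have e1 : (u - c • yu - pf ψ.ker χ) ∘ₗ resS ψ.ker (P.d (m + 1)) = 0 := by
        refine LinearMap.ext fun v => ?_
        simp only [LinearMap.comp_apply, resS_apply, LinearMap.sub_apply, LinearMap.smul_apply,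
          pf_apply, LinearMap.zero_apply]
        rw [h2, h3]; abel
      have e2 : (d + c • yd + pf ψ.ker χ) ∘ₗ resS ψ.ker (P.d (m + 1)) = 0 := by
        refine LinearMap.ext fun v => ?_
        simp only [LinearMap.comp_apply, resS_apply, LinearMap.add_apply, LinearMap.smul_apply,
          pf_apply, LinearMap.zero_apply]
        rw [h5, h2, h4]; abel
      obtain ⟨y, -, hy⟩ := (AU _).2.1 m (by omega) _ e1
        ((hu.sub (UpE.smul hyu c)).sub (pf_up hΔ χ))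
      obtain ⟨y', -, hy'⟩ := (AD _).2.1 m (by omega) _ e2
        ((hd.add (UpE.smul hyd c)).add (pf_down hΔ χ))
      refine ⟨c, y + y', fun v => ?_⟩
      have h6 := congrArg (fun f => f v) hy
      have h7 := congrArg (fun f => f v) hy'
      simp only [LinearMap.comp_apply, resS_apply, LinearMap.add_apply, LinearMap.sub_apply,
        LinearMap.smul_apply] at h6 h7 ⊢
      rw [← h6, ← h7, smul_sub]
      abel

end Vale.Agent.P260.H143
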